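import Vale.Agent.P273.H205.Ad1
import Vale.Agent.P273.H578.Bridge
import Vale.Agent.P273.H883.Br1

/-!
# P273, row ASY1, (7): the chart of a one-node region is smooth data for the bridge
-/

noncomputable section

namespace Vale.Agent.P273.H357

open Set Filter H95 H973 H879 H730 H883
open H681 (C6 XX)
open H578 (Brd)
open scoped Topology ContDiff

variable {R : Region1} {m : Fin (R.n + 1)} {k : Fin 5} {c : ℝ} {p : Co1 R m} {S : L → Bool}
  {g : ℂ} {v : L → ℂ}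

/-- the sheets near a point of the chart: continuation of the sheets `g`, `v` at `p` -/
def sg1 (R : Region1) {m : Fin (R.n + 1)} (S : L → Bool) (c : ℝ) (p : Co1 R m) (g : ℂ) (v : L → ℂ)
    (q : Co1 R m) : L → ℂ :=
  R.sht (toSp c q) (gb R (toSp c p) g (toSp c q)) (vb R S (toSp c p) v (toSp c q))

theorem sg1_self (hne : ∀ l, R.ctr (toSp c p) ≠ R.oth (toSp c p) l)
    (hs : R.isSheet S (toSp c p) g v) (hv : ∀ j, R.nk j = false → v j ≠ 0) :
    sg1 R S c p g v p = R.sht (toSp c p) g v := by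
  funext j
  unfold sg1 Region1.sht
  rcases Bool.eq_false_or_eq_true (R.nk j) with hj | hj
  · rw [if_pos hj, if_pos hj, gb_self hne]
  · rw [if_neg (by rw [hj]; simp), if_neg (by rw [hj]; simp), vb_self (hs.2 j hj) (hv j hj)]

theorem an_sg {p₀ : R.Sp} (hne : ∀ l, R.ctr p₀ ≠ R.oth p₀ l) (hs : R.isSheet S p₀ g v)
    (hv : ∀ j, R.nk j = false → v j ≠ 0)
    (hn : ∀ j, R.nk j = true → ∀ l, ‖R.XX p₀ (R.rk j)‖ < ‖R.ctr p₀ - R.oth p₀ l‖ / 8 ∧
      ‖R.YY p₀ (R.rk j)‖ < ‖R.ctr p₀ - R.oth p₀ l‖ / 8) (j : L) :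
    AnalyticAt ℂ (fun q : R.Sp => R.sht q (gb R p₀ g q) (vb R S p₀ v q) j) p₀ := by
  rcases Bool.eq_false_or_eq_true (R.nk j) with hj | hj
  · have e : (fun q : R.Sp => R.sht q (gb R p₀ g q) (vb R S p₀ v q) j) = fun q =>
        gb R p₀ g q * nf R q j * (R.XX q (R.rk j) - R.YY q (R.rk j)) * (2 : ℂ)⁻¹ := by
      funext q
      unfold Region1.sht
      rw [if_pos hj, div_eq_mul_inv]
      rfl
    rw [e]
    exact (((an_gb hne g).mul (an_nf hj (hn j hj))).mul ((an_XX _).sub (an_YY _))).mul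
      analyticAt_const
  · have e : (fun q : R.Sp => R.sht q (gb R p₀ g q) (vb R S p₀ v q) j) = fun q =>
        vb R S p₀ v q j := by
      funext q
      unfold Region1.sht
      rw [if_neg (by rw [hj]; simp)]
    rw [e]
    exact an_vb (hs.2 j hj) (hv j hj)

theorem contDiffAt_sg1 (hne : ∀ l, R.ctr (toSp c p) ≠ R.oth (toSp c p) l)
    (hs : R.isSheet S (toSp c p) g v) (hv : ∀ j, R.nk j = false → v j ≠ 0)
    (hn : ∀ j, R.nk j = true → ∀ l,
      ‖R.XX (toSp c p) (R.rk j)‖ < ‖R.ctr (toSp c p) - R.oth (toSp c p) l‖ / 8 ∧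
      ‖R.YY (toSp c p) (R.rk j)‖ < ‖R.ctr (toSp c p) - R.oth (toSp c p) l‖ / 8) (j : L) :
    ContDiffAt ℝ ∞ (fun q => sg1 R S c p g v q j) p := by
  have h1 : ContDiffAt ℝ ∞ (fun q : R.Sp =>
      R.sht q (gb R (toSp c p) g q) (vb R S (toSp c p) v q) j) (toSp c p) :=
    ((an_sg hne hs hv hn j).contDiffAt (n := ∞)).restrict_scalars ℝ
  exact ContDiffAt.comp p h1 (H401.Ch1.contDiff_toSp c).contDiffAt

/-- **the bridge for the chart of a one-node region, pointwise** -/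
theorem brd_of (hne : ∀ l, R.ctr (toSp c p) ≠ R.oth (toSp c p) l)
    (hfar : ∀ j, S j = true → R.nk j = false)
    (hs : R.isSheet S (toSp c p) g v) (hstd : ∀ j, R.sht (toSp c p) g v j ≠ 0)
    (hmem : (toE k c p).1 ∈ XX)
    (hn : ∀ j, R.nk j = true → ∀ l,
      ‖R.XX (toSp c p) (R.rk j)‖ < ‖R.ctr (toSp c p) - R.oth (toSp c p) l‖ / 8 ∧
      ‖R.YY (toSp c p) (R.rk j)‖ < ‖R.ctr (toSp c p) - R.oth (toSp c p) l‖ / 8) :
    Brd S (toE k c) (sg1 R S c p g v) p ∧ sg1 R S c p g v p = R.sht (toSp c p) g v := by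
  have hv : ∀ j, R.nk j = false → v j ≠ 0 := by
    intro j hj
    have h := hstd j
    unfold Region1.sht at h
    rwa [if_neg (by rw [hj]; simp)] at h
  have hself := sg1_self hne hs hv
  have hsm := contDiffAt_sg1 hne hs hv hn
  refine ⟨⟨(H401.Ch1.contDiff_toE k c).contDiffAt, hsm, hmem, ?_⟩, hself⟩
  have hc : Continuous (toSp c : Co1 R m → R.Sp) := (H401.Ch1.contDiff_toSp (n := 0) c).continuous
  have h1 : ∀ l, ∀ᶠ q in 𝓝 p, R.ctr (toSp c q) ≠ R.oth (toSp c q) l := by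
    intro l
    have a1 : Continuous fun q : Co1 R m => R.ctr (toSp c q) - R.oth (toSp c q) l := by
      have b1 : Continuous fun q : R.Sp => R.ctr q - R.oth q l := by
        unfold Region1.ctr Region1.oth
        fun_prop
      exact b1.comp hc
    filter_upwards [a1.continuousAt.eventually_ne (sub_ne_zero.2 (hne l))] with q hq
    exact sub_ne_zero.1 hq
  have h2 : ∀ j, ∀ᶠ q in 𝓝 p, sg1 R S c p g v q j ≠ 0 := by
    intro j
    refine (hsm j).continuousAt.eventually_ne ?_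
    rw [hself]
    exact hstd j
  filter_upwards [eventually_all.2 h1, eventually_all.2 h2] with q a1 a2
  exact H205.onC_of a1 hfar (isSheet_b hs hne hv (toSp c q)) a2

/-- **the bridge for the chart of a one-node region** -/
theorem brd_inReg {K : Set C6} {R₀ M₀ : ℝ} (hc : 0 < c) (h1 : c ≤ 1) (h0 : 0 ≤ M₀)
    (hK : K ⊆ H828.XD k) (hp : InReg k K c R₀ M₀ S p g v) (hmem : (toE k c p).1 ∈ XX)
    (hsep : ∀ l, 8 * c < ‖R.ctr (toSp c p) - R.oth (toSp c p) l‖) :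
    Brd S (toE k c) (sg1 R S c p g v) p ∧ sg1 R S c p g v p = R.sht (toSp c p) g v := by
  refine brd_of (H205.ctr_ne hK hp) hp.far hp.sheet hp.std.2 hmem fun j hj l => ?_
  have h := H205.inNeck_of hc h1 h0 hK hp hj
  have hX : ‖R.XX (toSp c p) (R.rk j)‖ ≤ c := h.hX
  have hY : ‖R.YY (toSp c p) (R.rk j)‖ ≤ c := h.hY
  have := hsep l
  constructor <;> linarith

/-- distances of the merged pair to the other roots, near a merged configuration -/
theorem exists_sep (k : Fin 5) {q₀ : C6} (h0 : q₀ ∈ H828.XD k) : ∃ U ∈ 𝓝 q₀, ∃ δ > 0,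
    ∀ q ∈ U, ∀ j : Fin 6, j ≠ k.castSucc → j ≠ k.succ → δ < ‖q k.castSucc - q j‖ := by
  have h1 : ∀ j : Fin 6, j ≠ k.castSucc → j ≠ k.succ → q₀ k.castSucc ≠ q₀ j := by
    intro j hj hj'
    rcases lt_or_gt_of_ne hj with h | h
    · exact (H752.ne_of_XD h0 h (Or.inl hj)).symm
    · exact H752.ne_of_XD h0 h (Or.inr hj')
  have h2 : ∀ j : Fin 6, ∃ δ : ℝ, 0 < δ ∧ ∀ᶠ q in 𝓝 q₀, j ≠ k.castSucc → j ≠ k.succ →
      δ < ‖q k.castSucc - q j‖ := by
    intro j
    by_cases hj : j ≠ k.castSucc ∧ j ≠ k.succ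
    · have h3 : 0 < ‖q₀ k.castSucc - q₀ j‖ := norm_pos_iff.2 (sub_ne_zero.2 (h1 j hj.1 hj.2))
      refine ⟨‖q₀ k.castSucc - q₀ j‖ / 2, by positivity, ?_⟩
      have h4 : Continuous fun q : C6 => ‖q k.castSucc - q j‖ := by fun_prop
      filter_upwards [h4.continuousAt.eventually (lt_mem_nhds (half_lt_self h3))] with q hq _ _
      exact hq
    · refine ⟨1, one_pos, Eventually.of_forall fun q a b => absurd ⟨a, b⟩ hj⟩
  choose δ hδ hev using h2
  refine ⟨_, eventually_all.2 hev, Finset.univ.inf' ⟨0, Finset.mem_univ _⟩ δ, ?_, ?_⟩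
  · exact (Finset.lt_inf'_iff _).2 fun j _ => hδ j
  · intro q hq j hj hj'
    exact (Finset.inf'_le δ (Finset.mem_univ j)).trans_lt (hq j hj hj')

/-- **(7), in the quantifiers of row ASY1** -/
theorem brd_one (k : Fin 5) {q₀ : C6} (h0 : q₀ ∈ H828.XD k) : ∃ U ∈ 𝓝 q₀, ∃ c₀ > 0,
    ∀ c, 0 < c → c ≤ c₀ → ∃ M₁ > 0, ∀ M₀ ≥ M₁, ∀ (R₀ : ℝ) (R : Region1) (m : Fin (R.n + 1))
      (S : L → Bool) (p : Co1 R m) (g : ℂ) (v : L → ℂ),
      InReg k (U ∩ H828.XD k) c R₀ M₀ S p g v →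
      Brd S (toE k c) (sg1 R S c p g v) p ∧ sg1 R S c p g v p = R.sht (toSp c p) g v := by
  obtain ⟨U₁, hU₁, δ₁, hδ₁, hs⟩ := exists_sep k h0
  obtain ⟨U₂, hU₂, δ₂, hδ₂, hm⟩ := H205.exists_bd_mem k h0
  refine ⟨U₁ ∩ U₂, inter_mem hU₁ hU₂, min 1 (δ₁ / 8), by positivity, fun c hc hc0 => ?_⟩
  have hc1 : c ≤ 1 := hc0.trans (min_le_left _ _)
  have hc8 : 8 * c ≤ δ₁ := by
    have := hc0.trans (min_le_right _ _)
    linarith
  have ht : Tendsto (fun M : ℝ => c * Real.exp (-M / 2)) atTop (𝓝 (c * 0)) := by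
    refine Tendsto.const_mul _ (Real.tendsto_exp_atBot.comp ?_)
    have h1 : Tendsto (fun M : ℝ => -(M / 2)) atTop atBot :=
      tendsto_neg_atTop_atBot.comp (tendsto_id.atTop_div_const two_pos)
    refine h1.congr fun M => ?_
    ring
  rw [mul_zero] at ht
  obtain ⟨M₂, hM₂⟩ := (ht.eventually (gt_mem_nhds hδ₂)).exists_forall_of_atTop
  refine ⟨max 1 M₂, by positivity, fun M₀ hM₀ R₀ R m S p g v hp => ?_⟩
  have hM1 : 1 ≤ M₀ := (le_max_left _ _).trans hM₀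
  have hM2 : c * Real.exp (-M₀ / 2) < δ₂ := hM₂ M₀ ((le_max_right _ _).trans hM₀)
  have hA := H205.adm_of (U := U₂) (M := M₀) hc hm hM2 le_rfl
    (fun q hq => ⟨hq.1.2, hq.2⟩) hp
  refine brd_inReg hc hc1 (by linarith) inter_subset_right hp ?_ fun l => ?_
  · rw [H205.toE_bd]
    exact hA.mem
  · have h3 := hs _ (hp.base.1.1) (H752.jo k l) (H752.jo_ne1 k l) (H752.jo_ne2 k l)
    have h4 : H752.bs R k (toSp c p) k.castSucc = R.ctr (toSp c p) := H752.bs_castSucc ..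
    have h5 : H752.bs R k (toSp c p) (H752.jo k l) = R.oth (toSp c p) l := H752.bs_jo ..
    have h6 : δ₁ < ‖H752.bs R k (toSp c p) k.castSucc - H752.bs R k (toSp c p) (H752.jo k l)‖ := h3
    rw [h4, h5] at h6
    linarith

end Vale.Agent.P273.H357

end
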