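import Vale.Agent.P273.H95.One

/-!
# P273, row ASY1, (C1) (c): the root of the other four factors on the neck of one node

`gam e g r x = g * ∏ csq ((x - r l) / (e - r l))` is the factor of 95's `Region1.sht`.
-/

open Set Filter Topology
open scoped ContDiff

noncomputable section

namespace Vale.Agent.P273.H357

open H95

/-- `csq` near `1` -/
theorem norm_csq_sub_one_le {z : ℂ} (h : ‖z - 1‖ < 1) : ‖csq z - 1‖ ≤ ‖z - 1‖ := by
  have hre : 0 < z.re := by
    have h1 := Complex.abs_re_le_norm (z - 1)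
    rw [Complex.sub_re, Complex.one_re] at h1
    have h2 := abs_lt.1 (h1.trans_lt h)
    linarith
  have hz : z ≠ 0 := by
    rintro rfl
    simp at hre
  have hr : 0 < (csq z).re := by
    unfold csq
    rw [Complex.cpow_def_of_ne_zero hz, Complex.exp_re]
    refine mul_pos (Real.exp_pos _) (Real.cos_pos_of_mem_Ioo ?_)
    have e : (Complex.log z * (1 / 2)).im = z.arg / 2 := by
      rw [show (1 / 2 : ℂ) = ((1 / 2 : ℝ) : ℂ) by push_cast; ring, Complex.im_mul_ofReal,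
        Complex.log_im]
      ring
    rw [e]
    have h1 := Complex.neg_pi_lt_arg z
    have h2 := Complex.arg_le_pi z
    have h3 := Complex.abs_arg_lt_pi_div_two_iff.2 (Or.inl hre)
    have h4 := abs_lt.1 h3
    constructor <;> linarith [Real.pi_pos]
  have e : z - 1 = (csq z - 1) * (csq z + 1) := by
    have := csq_sq' z
    linear_combination -this
  have h1 : 1 ≤ ‖csq z + 1‖ := by
    have h2 := Complex.abs_re_le_norm (csq z + 1)
    rw [Complex.add_re, Complex.one_re] at h2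
    have h3 := le_abs_self ((csq z).re + 1)
    linarith
  calc ‖csq z - 1‖ = ‖csq z - 1‖ * 1 := (mul_one _).symm
    _ ≤ ‖csq z - 1‖ * ‖csq z + 1‖ := by gcongr
    _ = ‖z - 1‖ := by rw [e, norm_mul]

/-- the root of the other factors, with value `g` at `e` -/
def gam (e g : ℂ) (r : Fin 4 → ℂ) (x : ℂ) : ℂ := g * ∏ l, csq ((x - r l) / (e - r l))

variable {e g : ℂ} {r : Fin 4 → ℂ} {x x' : ℂ}

theorem gam_sq (he : ∀ l, e ≠ r l) (hg : g ^ 2 = ∏ l, (e - r l)) :
    gam e g r x ^ 2 = ∏ l, (x - r l) := by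
  unfold gam
  rw [mul_pow, hg, ← Finset.prod_pow, ← Finset.prod_mul_distrib]
  refine Finset.prod_congr rfl fun l _ => ?_
  rw [csq_sq']
  exact mul_div_cancel₀ _ (sub_ne_zero.2 (he l))

theorem gam_ne (he : ∀ l, e ≠ r l) (hg : g ^ 2 = ∏ l, (e - r l)) (hx : ∀ l, x ≠ r l) :
    gam e g r x ≠ 0 := by
  intro h
  have h1 := gam_sq (x := x) he hg
  rw [h, zero_pow two_ne_zero] at h1
  exact Finset.prod_ne_zero_iff.2 (fun l _ => sub_ne_zero.2 (hx l)) h1.symm

theorem gam_zero_ne (he : ∀ l, e ≠ r l) (hg : g ^ 2 = ∏ l, (e - r l)) : g ≠ 0 := by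
  rintro rfl
  rw [zero_pow two_ne_zero] at hg
  exact Finset.prod_ne_zero_iff.2 (fun l _ => sub_ne_zero.2 (he l)) hg.symm

/-- the product of four numbers near `1` -/
theorem norm_prod_four_sub_one {w : Fin 4 → ℂ} {η : ℝ} (hη : η ≤ 1 / 64)
    (hw : ∀ l, ‖w l - 1‖ ≤ η) : ‖∏ l, w l - 1‖ ≤ 5 * η := by
  have h0 : 0 ≤ η := (norm_nonneg _).trans (hw 0)
  have h1 := Finset.norm_prod_one_add_sub_one_le (Finset.univ : Finset (Fin 4))
    (fun l => w l - 1)
  have e1 : ∏ l, (1 + (w l - 1)) = ∏ l, w l := Finset.prod_congr rfl fun l _ => by ring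
  rw [e1] at h1
  have h2 : ∑ l : Fin 4, ‖w l - 1‖ ≤ 4 * η := by
    refine (Finset.sum_le_card_nsmul _ _ η fun l _ => hw l).trans ?_
    rw [Finset.card_univ, Fintype.card_fin, nsmul_eq_mul]
    norm_num
  refine h1.trans ?_
  have h3 : Real.exp (∑ l : Fin 4, ‖w l - 1‖) ≤ Real.exp (4 * η) := Real.exp_le_exp.2 h2
  have h4 : |4 * η| ≤ 1 := by rw [abs_of_nonneg (by linarith)]; linarith
  have h5 := Real.abs_exp_sub_one_sub_id_le h4
  have h6 := abs_le.1 h5
  nlinarith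

/-- **the ratio of the value at `x` to the value at `e`** -/
theorem norm_gam_div_sub_one {η : ℝ} (hη : η ≤ 1 / 64) (he : ∀ l, e ≠ r l)
    (hg : g ≠ 0) (hx : ∀ l, ‖x - e‖ ≤ η * ‖e - r l‖) :
    ‖gam e g r x / g - 1‖ ≤ 5 * η := by
  have h1 : gam e g r x / g = ∏ l, csq ((x - r l) / (e - r l)) := by
    unfold gam
    rw [mul_div_cancel_left₀ _ hg]
  rw [h1]
  refine norm_prod_four_sub_one hη fun l => ?_
  have h2 : ‖(x - r l) / (e - r l) - 1‖ ≤ η := by
    have h3 : (x - r l) / (e - r l) - 1 = (x - e) / (e - r l) := by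
      have := sub_ne_zero.2 (he l)
      field_simp
      ring
    rw [h3, norm_div, div_le_iff₀ (norm_pos_iff.2 (sub_ne_zero.2 (he l)))]
    exact hx l
  exact (norm_csq_sub_one_le (h2.trans_lt (by linarith))).trans h2

/-- **the ratio of two values** -/
theorem norm_gam_ratio {η : ℝ} (hη : η ≤ 1 / 64) (he : ∀ l, e ≠ r l)
    (hg0 : g ≠ 0) (hx : ∀ l, ‖x - e‖ ≤ η * ‖e - r l‖)
    (hx' : ∀ l, ‖x' - e‖ ≤ η * ‖e - r l‖) :
    ‖gam e g r x' / gam e g r x - 1‖ ≤ 11 * η := by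
  have h0 : 0 ≤ η := by
    by_contra h
    push Not at h
    have h1 := hx 0
    have h2 := norm_pos_iff.2 (sub_ne_zero.2 (he 0))
    have h3 := norm_nonneg (x - e)
    nlinarith
  have h1 := norm_gam_div_sub_one hη he hg0 hx
  have h2 := norm_gam_div_sub_one hη he hg0 hx'
  set a := gam e g r x / g with ha
  set a' := gam e g r x' / g with ha'
  have h3 : 1 - 5 * η ≤ ‖a‖ := by
    have := norm_sub_norm_le (1 : ℂ) (1 - a)
    rw [sub_sub_cancel, norm_one, norm_sub_rev] at this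
    linarith
  have ha0 : 0 < ‖a‖ := by linarith
  have e1 : gam e g r x' / gam e g r x - 1 = (a' - 1 - (a - 1)) / a := by
    have hane : a ≠ 0 := norm_pos_iff.1 ha0
    have e2 : gam e g r x = a * g := by rw [ha, div_mul_cancel₀ _ hg0]
    have e3 : gam e g r x' = a' * g := by rw [ha', div_mul_cancel₀ _ hg0]
    rw [e2, e3]
    field_simp
    ring
  rw [e1, norm_div, div_le_iff₀ ha0]
  refine (norm_sub_le _ _).trans ?_
  nlinarith

theorem norm_gam_ratio_half (he : ∀ l, e ≠ r l) (hg : g ≠ 0)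
    (hx : ∀ l, ‖x - e‖ ≤ ‖e - r l‖ / 64) (hx' : ∀ l, ‖x' - e‖ ≤ ‖e - r l‖ / 64) :
    ‖gam e g r x' / gam e g r x - 1‖ ≤ 1 / 4 :=
  (norm_gam_ratio (η := 1 / 64) le_rfl he hg (fun l => by have := hx l; linarith)
    fun l => by have := hx' l; linarith).trans (by norm_num)

/-- a point of the curve `v² = ((x-e)² - d²) ∏ (x - r l)` in the neck coordinates, with the sheet -/
theorem eq_gam_or {X Y d v : ℂ} (he : ∀ l, e ≠ r l) (hg : g ^ 2 = ∏ l, (e - r l))
    (hXY : X * Y = d ^ 2)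
    (hv : v ^ 2 = ((e + (X + Y) / 2 - e) ^ 2 - d ^ 2) * ∏ l, (e + (X + Y) / 2 - r l)) :
    v = gam e g r (e + (X + Y) / 2) * ((X - Y) / 2) ∨
      v = gam e g r (e + (X + Y) / 2) * ((Y - X) / 2) := by
  have h1 := gam_sq (x := e + (X + Y) / 2) he hg
  have h2 : v ^ 2 = (gam e g r (e + (X + Y) / 2) * ((X - Y) / 2)) ^ 2 := by
    rw [mul_pow, h1, hv, ← hXY]
    ring
  rcases sq_eq_sq_iff_eq_or_eq_neg.1 h2 with h | h
  · exact Or.inl h
  · refine Or.inr (h.trans ?_)
    ring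

/-- neck coordinates of any point over `e + u`, on the given sheet -/
theorem exists_neck {d v : ℂ} (he : ∀ l, e ≠ r l) (hg : g ^ 2 = ∏ l, (e - r l)) (x : ℂ)
    (hv : v ^ 2 = ((x - e) ^ 2 - d ^ 2) * ∏ l, (x - r l)) :
    ∃ X Y : ℂ, X * Y = d ^ 2 ∧ x = e + (X + Y) / 2 ∧ v = gam e g r x * ((X - Y) / 2) := by
  obtain ⟨s, hs⟩ := IsAlgClosed.exists_pow_nat_eq ((x - e) ^ 2 - d ^ 2) (n := 2) (by norm_num)
  have h1 := gam_sq (x := x) he hg
  have h2 : v ^ 2 = (gam e g r x * s) ^ 2 := by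
    rw [mul_pow, h1, hs, hv]
    ring
  rcases sq_eq_sq_iff_eq_or_eq_neg.1 h2 with h | h
  · refine ⟨x - e + s, x - e - s, ?_, by ring, ?_⟩
    · linear_combination -hs
    · rw [h]
      ring
  · refine ⟨x - e - s, x - e + s, ?_, by ring, ?_⟩
    · linear_combination -hs
    · rw [h]
      ring

/-! ### the one-node region -/

section reg

variable (R : Region1)

/-- the factor of 95's `sht` -/
theorem sht_eq_gam (p : R.Sp) (g : ℂ) (v : L → ℂ) {j : L} (h : R.nk j = true) :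
    R.sht p g v j = gam (R.ctr p) g (R.oth p) (R.pos p j) *
      ((R.XX p (R.rk j) - R.YY p (R.rk j)) / 2) := by
  unfold Region1.sht gam
  rw [if_pos h]
  ring

theorem pos_eq_neck (p : R.Sp) {j : L} (h : R.nk j = true) :
    R.pos p j = R.ctr p + (R.XX p (R.rk j) + R.YY p (R.rk j)) / 2 := by
  unfold Region1.pos
  rw [dif_neg (by rw [h]; decide)]

theorem norm_pos_sub_le (p : R.Sp) {j : L} (h : R.nk j = true) {c : ℝ}
    (hX : ‖R.XX p (R.rk j)‖ ≤ c) (hY : ‖R.YY p (R.rk j)‖ ≤ c) : ‖R.pos p j - R.ctr p‖ ≤ c := by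
  rw [pos_eq_neck R p h, add_sub_cancel_left, norm_div]
  have h1 := norm_add_le (R.XX p (R.rk j)) (R.YY p (R.rk j))
  have h2 : ‖(2 : ℂ)‖ = 2 := by norm_num
  rw [h2]
  linarith

end reg

end Vale.Agent.P273.H357

end
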