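import Vale.Agent.P273.H357.GamSht
import Vale.Agent.P273.H730.Asm0

/-!
# P273, row ASY1, assembly cut (c): `NeckC`

Two marks of one neck near each other (same sheet) have comparable neck coordinates.
-/

open Set Filter Topology Metric
open scoped ContDiff ComplexConjugate

noncomputable section

namespace Vale.Agent.P273.H357

open H95 H578

/-- the scale is at most the distance to a root which is not the point -/
theorem Hs_le_of_ne {ι : Type*} [Fintype ι] {b : ι → ℂ} {x : ℂ} {i : ι} (h : x ≠ b i) :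
    Hs b x ≤ ‖x - b i‖ := by
  have h1 := inv_le_norm b x i
  have h0 : 0 < ‖x - b i‖ := norm_pos_iff.2 (sub_ne_zero.2 h)
  have h2 : 0 < ‖x - b i‖⁻¹ := inv_pos.2 h0
  unfold Hs
  rw [inv_le_comm₀ (h2.trans_le h1) h0]
  exact h1

/-- a number whose square is near `1` -/
theorem near_of_sq {w γ : ℂ} {η : ℝ} (hη : η ≤ 1 / 8) (h : ‖w ^ 2 - 1‖ ≤ η)
    (hγ : ‖γ - 1‖ ≤ 1 / 4) (hre : 0 < (γ * w).re) : ‖w - 1‖ ≤ η := by
  have e : w ^ 2 - 1 = (w - 1) * (w + 1) := by ring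
  rw [e, norm_mul] at h
  rcases le_or_gt 1 ‖w + 1‖ with h1 | h1
  · exact (le_mul_of_one_le_right (norm_nonneg _) h1).trans h
  · exfalso
    have h2 : 1 ≤ ‖w - 1‖ := by
      have h3 := norm_sub_le (w + 1) (w - 1)
      have h4 : (w + 1) - (w - 1) = 2 := by ring
      rw [h4] at h3
      have h5 : ‖(2 : ℂ)‖ = 2 := by norm_num
      rw [h5] at h3
      linarith
    have h3 : ‖w + 1‖ ≤ 1 / 8 :=
      (le_mul_of_one_le_left (norm_nonneg _) h2).trans (h.trans hη)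
    have h4 : γ * w = -1 + ((w + 1) + (γ - 1) * w) := by ring
    have h5 : ‖(w + 1) + (γ - 1) * w‖ ≤ 1 / 8 + 1 / 4 * (9 / 8) := by
      refine (norm_add_le _ _).trans (add_le_add h3 ?_)
      rw [norm_mul]
      refine mul_le_mul hγ ?_ (norm_nonneg _) (by norm_num)
      have h6 : w = (w + 1) - 1 := by ring
      rw [h6]
      refine (norm_sub_le _ _).trans ?_
      rw [norm_one]
      linarith
    rw [h4, Complex.add_re, Complex.neg_re, Complex.one_re] at hre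
    have h7 := (le_abs_self _).trans (Complex.abs_re_le_norm ((w + 1) + (γ - 1) * w))
    linarith

/-- the algebra: `u² = t₁ t₂`, `u'² = (t₁ + D)(t₂ + D)` -/
theorem ratio_u {t₁ t₂ D u u' : ℂ} {ρ : ℝ} (h0 : 0 ≤ ρ) (hρ : ρ ≤ 1 / 256) (hu : u ^ 2 = t₁ * t₂)
    (hu' : u' ^ 2 = (t₁ + D) * (t₂ + D)) (h1 : ‖D‖ ≤ ρ * ‖t₁‖) (h2 : ‖D‖ ≤ ρ * ‖t₂‖)
    (hne : u ≠ 0) : ‖(u' / u) ^ 2 - 1‖ ≤ 3 * ρ ∧ ‖D‖ ≤ ρ * ‖u‖ := by
  have hu2 : u ^ 2 ≠ 0 := pow_ne_zero 2 hne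
  have ht₁ : t₁ ≠ 0 := by
    rintro rfl
    rw [zero_mul] at hu
    exact hu2 hu
  have ht₂ : t₂ ≠ 0 := by
    rintro rfl
    rw [mul_zero] at hu
    exact hu2 hu
  have n₁ := norm_pos_iff.2 ht₁
  have n₂ := norm_pos_iff.2 ht₂
  have a₁ : ‖D / t₁‖ ≤ ρ := by
    rw [norm_div, div_le_iff₀ n₁]
    exact h1
  have a₂ : ‖D / t₂‖ ≤ ρ := by
    rw [norm_div, div_le_iff₀ n₂]
    exact h2
  constructor
  · have e : (u' / u) ^ 2 - 1 = D / t₁ + D / t₂ + D / t₁ * (D / t₂) := by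
      rw [div_pow, hu, hu']
      field_simp
      ring
    rw [e]
    calc ‖D / t₁ + D / t₂ + D / t₁ * (D / t₂)‖ ≤ ‖D / t₁‖ + ‖D / t₂‖ + ‖D / t₁‖ * ‖D / t₂‖ := by
          refine (norm_add_le _ _).trans ?_
          rw [norm_mul]
          gcongr
          exact norm_add_le _ _
      _ ≤ ρ + ρ + ρ * ρ := by gcongr
      _ ≤ 3 * ρ := by nlinarith
  · have h3 : ‖D‖ ^ 2 ≤ (ρ * ‖u‖) ^ 2 := by
      have h4 : ‖u‖ ^ 2 = ‖t₁‖ * ‖t₂‖ := by rw [← norm_pow, hu, norm_mul]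
      rw [mul_pow, h4]
      calc ‖D‖ ^ 2 = ‖D‖ * ‖D‖ := sq _
        _ ≤ (ρ * ‖t₁‖) * (ρ * ‖t₂‖) := by gcongr
        _ = ρ ^ 2 * (‖t₁‖ * ‖t₂‖) := by ring
    exact le_of_sq_le_sq h3 (by positivity)

/-- the larger coordinate first -/
theorem comp_of_le {X Y X' Y' d D : ℂ} {ρ : ℝ} (h0 : 0 ≤ ρ) (hρ : ρ ≤ 1 / 256)
    (h : X * Y = d ^ 2) (h' : X' * Y' = d ^ 2) (hd : d ≠ 0) (hYX : ‖Y‖ ≤ ‖X‖)
    (hD : (X' + Y') / 2 = (X + Y) / 2 + D) (hDu : ‖D‖ ≤ ρ * ‖(X - Y) / 2‖)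
    (hu : ‖(X' - Y') / 2 - (X - Y) / 2‖ ≤ 3 * ρ * ‖(X - Y) / 2‖) :
    ‖X' - X‖ ≤ ‖X‖ / 4 ∧ ‖Y' - Y‖ ≤ ‖Y‖ / 4 := by
  have hd2 : d ^ 2 ≠ 0 := pow_ne_zero 2 hd
  have hX : X ≠ 0 := by
    rintro rfl
    rw [zero_mul] at h
    exact hd2 h.symm
  have hX' : X' ≠ 0 := by
    rintro rfl
    rw [zero_mul] at h'
    exact hd2 h'.symm
  have hnX := norm_pos_iff.2 hX
  have hU : ‖(X - Y) / 2‖ ≤ ‖X‖ := by
    rw [norm_div]
    have h2 : ‖(2 : ℂ)‖ = 2 := by norm_num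
    have := norm_sub_le X Y
    rw [h2]
    linarith
  have e1 : X' - X = D + ((X' - Y') / 2 - (X - Y) / 2) := by
    linear_combination hD
  have h1 : ‖X' - X‖ ≤ 4 * ρ * ‖X‖ := by
    rw [e1]
    calc ‖D + ((X' - Y') / 2 - (X - Y) / 2)‖ ≤ ρ * ‖(X - Y) / 2‖ + 3 * ρ * ‖(X - Y) / 2‖ :=
          (norm_add_le _ _).trans (add_le_add hDu hu)
      _ = 4 * ρ * ‖(X - Y) / 2‖ := by ring
      _ ≤ 4 * ρ * ‖X‖ := by gcongr
  have h2 : ‖X' - X‖ ≤ ‖X‖ / 64 := h1.trans (by nlinarith)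
  refine ⟨h2.trans (by linarith), ?_⟩
  have e2 : Y' - Y = Y * ((X - X') / X') := by
    have e3 : Y' = d ^ 2 / X' := by
      rw [← h']
      field_simp
    have e4 : Y = d ^ 2 / X := by
      rw [← h]
      field_simp
    rw [e3, e4]
    field_simp
  have h3 : ‖X‖ * (63 / 64) ≤ ‖X'‖ := by
    have := norm_sub_norm_le X (X - X')
    rw [sub_sub_cancel, norm_sub_rev] at this
    linarith
  have hn' := norm_pos_iff.2 hX'
  rw [e2, norm_mul, norm_div, norm_sub_rev X X']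
  have h4 : ‖X' - X‖ / ‖X'‖ ≤ 1 / 4 := by
    rw [div_le_iff₀ hn']
    linarith
  calc ‖Y‖ * (‖X' - X‖ / ‖X'‖) ≤ ‖Y‖ * (1 / 4) := by gcongr
    _ = ‖Y‖ / 4 := by ring

/-- **Two neck marks near each other, on the same sheet, have comparable neck coordinates**; `γ`,
`γ'` = the factors of the sheets. -/
theorem comp_of_nr {ι : Type*} [Fintype ι] {b : ι → ℂ} {i j : ι} {e d X Y X' Y' γ γ' : ℂ} {ρ : ℝ}
    (hi : b i = e - d) (hj : b j = e + d) (hd : d ≠ 0) (hρ : ρ ≤ 1 / 256)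
    (h : X * Y = d ^ 2) (h' : X' * Y' = d ^ 2) (hγ0 : γ ≠ 0) (hγ : ‖γ' / γ - 1‖ ≤ 1 / 4)
    (hN : Nr ρ b (e + (X + Y) / 2, γ * ((X - Y) / 2)) (e + (X' + Y') / 2, γ' * ((X' - Y') / 2))) :
    ‖X' - X‖ ≤ ‖X‖ / 4 ∧ ‖Y' - Y‖ ≤ ‖Y‖ / 4 := by
  obtain ⟨hS, hx⟩ := hN
  replace hS : Same (γ * ((X - Y) / 2)) (γ' * ((X' - Y') / 2)) := hS
  replace hx : ‖e + (X + Y) / 2 - (e + (X' + Y') / 2)‖ < ρ * Hs b (e + (X + Y) / 2) := hx
  set u := (X - Y) / 2 with hu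
  set u' := (X' - Y') / 2 with hu'
  have hu0 : u ≠ 0 := by
    intro h0
    rw [h0, mul_zero] at hS
    unfold H578.Same at hS
    simp at hS
  have hsame := (same_iff (mul_ne_zero hγ0 hu0)).1 hS
  have t₁ : e + (X + Y) / 2 - b i = (X + Y) / 2 + d := by rw [hi]; ring
  have t₂ : e + (X + Y) / 2 - b j = (X + Y) / 2 - d := by rw [hj]; ring
  have hsq : u ^ 2 = ((X + Y) / 2 + d) * ((X + Y) / 2 - d) := by
    rw [hu]
    linear_combination -h
  have ni : e + (X + Y) / 2 ≠ b i := by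
    intro h0
    rw [← sub_eq_zero, t₁] at h0
    rw [h0, zero_mul] at hsq
    exact pow_ne_zero 2 hu0 hsq
  have nj : e + (X + Y) / 2 ≠ b j := by
    intro h0
    rw [← sub_eq_zero, t₂] at h0
    rw [h0, mul_zero] at hsq
    exact pow_ne_zero 2 hu0 hsq
  have l₁ := Hs_le_of_ne ni
  have l₂ := Hs_le_of_ne nj
  rw [t₁] at l₁
  rw [t₂] at l₂
  set D := (X' + Y') / 2 - (X + Y) / 2 with hD
  have hDn : ‖e + (X + Y) / 2 - (e + (X' + Y') / 2)‖ = ‖D‖ := by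
    rw [norm_sub_rev, hD]
    congr 1
    ring
  rw [hDn] at hx
  have hH := Hs_nonneg b (e + (X + Y) / 2)
  have hρ0 : 0 ≤ ρ := by
    by_contra h0
    push Not at h0
    have := norm_nonneg D
    nlinarith
  have b₁ : ‖D‖ ≤ ρ * ‖(X + Y) / 2 + d‖ := hx.le.trans (by gcongr)
  have b₂ : ‖D‖ ≤ ρ * ‖(X + Y) / 2 - d‖ := hx.le.trans (by gcongr)
  have hsq' : u' ^ 2 = ((X + Y) / 2 + d + D) * ((X + Y) / 2 - d + D) := by
    rw [hu', hD]
    linear_combination -h'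
  obtain ⟨r1, r2⟩ := ratio_u hρ0 hρ hsq hsq' b₁ b₂ hu0
  have hre : 0 < (γ' / γ * (u' / u)).re := by
    have e1 : γ' / γ * (u' / u) = γ' * u' / (γ * u) := by
      field_simp
    rw [e1]
    exact hsame
  have r3 := near_of_sq (η := 3 * ρ) (by linarith) r1 hγ hre
  have r4 : ‖u' - u‖ ≤ 3 * ρ * ‖u‖ := by
    have e1 : u' - u = (u' / u - 1) * u := by
      field_simp
    rw [e1, norm_mul]
    gcongr
  have hsum : (X' + Y') / 2 = (X + Y) / 2 + D := by rw [hD]; ring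
  rcases le_total ‖Y‖ ‖X‖ with hle | hle
  · exact comp_of_le hρ0 hρ h h' hd hle hsum r2 r4
  · have h2 := comp_of_le (X := Y) (Y := X) (X' := Y') (Y' := X') hρ0 hρ
      (by rw [mul_comm]; exact h) (by rw [mul_comm]; exact h') hd hle (D := D)
      (by rw [add_comm Y' X', add_comm Y X]; exact hsum)
      (by
        have e1 : (Y - X) / 2 = -u := by rw [hu]; ring
        rw [e1, norm_neg]
        exact r2)
      (by
        have e1 : (Y - X) / 2 = -u := by rw [hu]; ring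
        have e2 : (Y' - X') / 2 - (Y - X) / 2 = -(u' - u) := by rw [hu, hu']; ring
        rw [e2, e1, norm_neg, norm_neg]
        exact r4)
    exact ⟨h2.2, h2.1⟩

/-- **(c) of the assembly of row ASY1.** -/
theorem neckC : H730.NeckC := by
  intro b i j e d g X Y X' Y' o c ρ _ hi hj hd hc hρ h h' hX hY hX' hY' ho hN
  have heo : ∀ l, e ≠ o l := by
    intro l hl
    have := ho l
    rw [hl, sub_self, norm_zero] at this
    linarith
  have hg : g ≠ 0 := by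
    rintro rfl
    have h1 := hN.1
    unfold H578.Same at h1
    simp at h1
  have key : ∀ {A B : ℂ}, ‖A‖ ≤ c → ‖B‖ ≤ c → ∀ l, ‖e + (A + B) / 2 - e‖ ≤ 1 / 64 * ‖e - o l‖ := by
    intro A B hA hB l
    rw [add_sub_cancel_left, norm_div]
    have h1 := norm_add_le A B
    have h2 : ‖(2 : ℂ)‖ = 2 := by norm_num
    rw [h2]
    have := ho l
    linarith
  have hr := norm_gam_div_sub_one (g := g) (η := 1 / 64) le_rfl heo hg (key hX hY)
  have hγ := norm_gam_ratio (η := 1 / 64) le_rfl heo hg (key hX hY) (key hX' hY')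
  have hγ0 : gam e g o (e + (X + Y) / 2) ≠ 0 := by
    intro h0
    rw [h0, zero_div, zero_sub, norm_neg, norm_one] at hr
    norm_num at hr
  refine comp_of_nr (γ := gam e g o (e + (X + Y) / 2)) (γ' := gam e g o (e + (X' + Y') / 2))
    hi hj hd hρ h h' hγ0 (hγ.trans (by norm_num)) ?_
  have e1 : gam e g o (e + (X + Y) / 2) * ((X - Y) / 2) =
      g * (∏ l : Fin 4, csq ((e + (X + Y) / 2 - o l) / (e - o l))) * (X - Y) / 2 := by
    unfold gam; ring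
  have e2 : gam e g o (e + (X' + Y') / 2) * ((X' - Y') / 2) =
      g * (∏ l : Fin 4, csq ((e + (X' + Y') / 2 - o l) / (e - o l))) * (X' - Y') / 2 := by
    unfold gam; ring
  rw [e1, e2]
  exact hN

end Vale.Agent.P273.H357

end
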